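import Vale.Agent.P218ST.Hub
import Vale.Agent.P218WD.Cut
import Vale.Agent.P218HB.Calc

/-! # The configurations given by the static construction -/

open Set Filter Topology Metric MeasureTheory
open scoped Matrix ContDiff

set_option linter.unusedSectionVars false

noncomputable section

namespace Vale.Agent.P218AC

open Vale.Agent.P218GA Vale.Agent.P218HB Vale.Agent.P272.K.LIN Vale.Agent.P218ST
open Vale.Agent.P218SQ (Pt Adm)
open Vale.Agent.P218VA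
open Vale.Agent.P218XI (coneF kap U0 U1 U2)
open Vale.Agent.P218EN (xf)

variable {S : Set E3} {w : E3 → ℝ} {δ C : ℝ} {ι κ M : Type} [Fintype ι] [Fintype κ]
  [TopologicalSpace M] [ChartedSpace E2 M] [T2Space M] [RSm E2 M] [CompactSpace M]
  [MeasurableSpace M] [BorelSpace M] {m : Model S w δ C ι κ M} {τ : Type} [Fintype τ]

lemma coreK_sub_reg (m : Model S w δ C ι κ M) (r : ℝ) : coreK m.φ r ⊆ m.reg := by
  intro x hx j h
  have h1 := hx j (h ▸ (m.φ j).map_target (m.zero_mem j))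
  rw [h, (m.φ j).right_inv (m.zero_mem j), norm_zero] at h1
  exact h1.not_gt (Real.exp_pos _)

lemma coreK_mono {ε : Type} {φ : ε → OpenPartialHomeomorph M E2} {r r' : ℝ} (h : r ≤ r') :
    coreK φ r ⊆ coreK φ r' := fun _ hx j hj =>
  (Real.exp_le_exp.2 (by linarith)).trans (hx j hj)

variable (H : Hub m τ)

lemma w0_lt : m.w0 < H.s := H.lt.trans_le H.le

/-- the fixed data -/
def geo (𝒞 : Cov E2 M) : Geo M ι κ where
  φ := m.φ
  w0 := m.w0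
  s := H.s + 1
  F x := cx (m.F x)
  ν x := cx (m.nu x)
  μ := m.mu0
  𝒞 := 𝒞
  Fr j := coneF (m.L j)
  D := coreK m.φ H.sd
  ends := isEnds_model m
  lt := by linarith [w0_lt H]
  one_le := by linarith [w0_lt H, m.one_le]
  area := m.isArea.mono ((isEnds_model m).isOpen_coreO (by linarith [w0_lt H]))
    (coreO_subset_coreK.trans (coreK_sub_reg m _))
  deep := coreK_mono (by linarith [H.le])

/-- the configurations -/
def cfg (W : ι → ℝ) (z : Pt ι τ) : Cfg M ι κ where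
  X := H.X W z
  U := H.U W z
  R := Sum.elim (H.R W z) fun _ => 1
  t := Sum.elim (fun i p => kap p.1 * U0 (H.α W z i) (H.J W z i) p) (H.t W z)
  tw := Sum.elim (fun i p => kap p.1 * (U1 (H.α W z i) (H.J W z i) p -
    xf p.1 * U0 (H.α W z i) (H.J W z i) p)) fun j => pd (H.t W z j) (1, 0)
  tθ := Sum.elim (fun i p => kap p.1 * U2 (H.α W z i) (H.J W z i) p)
    fun j => pd (H.t W z j) (0, 1)

/-- the multiplier functions on the closed surface -/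
def eD (k : τ ⊕ ι) : M → ℂ := (coreK m.φ H.sd).indicator fun x => (H.e k (m.F x) : ℝ)

lemma cfg_at (W : ι → ℝ) (z : Pt ι τ) (i : ι) (v : ℝ) :
    P218WD.At (cfg H W z) i (H.α W z i) (H.J W z i) v := ⟨fun _ => rfl, fun _ => rfl, fun _ => rfl⟩

/-- the clause of `Geo.Sol.jet` for one end -/
def JetAt (G : Geo M ι κ) (W : ι → ℝ) (C : Cfg M ι κ) (j : ι ⊕ κ) : Prop :=
  ∃ tww twθ tθθ, Jet2 (G.rg W j) (C.t j) (C.tw j) (C.tθ j) tww twθ tθθ ∧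
    ∀ p : ℝ × ℝ, p.1 ∈ interior (G.rg W j) → PP (G.Z C j p) (G.Z1 C j p) (G.Z2 C j p)
      ((G.fr j).aa p.1 p.2 (C.t j p) (C.tw j p) (tww p))
      ((G.fr j).ab p.1 p.2 (C.t j p) (C.tw j p) (C.tθ j p) (twθ p))
      ((G.fr j).bb p.1 p.2 (C.t j p) (C.tθ j p) (tθθ p)) = 0

/-- the clause of `Geo.Sol.small` for one end -/
def SmallAt (G : Geo M ι κ) (W : ι → ℝ) (C : Cfg M ι κ) (j : ι ⊕ κ) : Prop :=
  ∀ p : ℝ × ℝ, p.1 ∈ G.rg W j → ‖C.t j p‖ ≤ 1 / 2 ∧ p.1 * ‖C.tw j p‖ ≤ 1 ∧ ‖C.tθ j p‖ ≤ 1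

/-- the clause of `Geo.Close.cyl` for one end -/
def CylClose (G : Geo M ι κ) (W W' : ι → ℝ) (C C' : Cfg M ι κ) (δ : ℝ) (i : ι) : Prop :=
  ∃ ψ ψ', IsPull G.s (W i) (W' i) ψ ψ' δ ∧ ∀ w ∈ Icc G.s (W i), ∀ θ,
    ‖C'.t (.inl i) (ψ w, θ) - C.t (.inl i) (w, θ)‖ ≤ δ ∧
      ‖C'.tw (.inl i) (ψ w, θ) - C.tw (.inl i) (w, θ)‖ ≤ δ ∧
      ‖C'.tθ (.inl i) (ψ w, θ) - C.tθ (.inl i) (w, θ)‖ ≤ δ

/-- the clause of `Geo.Close.cone` -/
def ConeClose (G : Geo M ι κ) (C C' : Cfg M ι κ) (δ : ℝ) : Prop :=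
  ∀ k (p : ℝ × ℝ), G.s ≤ p.1 → ‖C'.t (.inr k) p - C.t (.inr k) p‖ ≤ δ ∧
    p.1 * ‖C'.tw (.inr k) p - C.tw (.inr k) p‖ ≤ δ ∧ ‖C'.tθ (.inr k) p - C.tθ (.inr k) p‖ ≤ δ

end Vale.Agent.P218AC
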