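import Vale.Agent.P218AC.Fam
import Vale.Agent.P218WD.HubCyl

/-! # The reduced action -/

open Set Filter Topology Metric MeasureTheory
open scoped Matrix ContDiff

set_option linter.unusedSectionVars false

noncomputable section

namespace Vale.Agent.P218AC

open Vale.Agent.P218GA Vale.Agent.P218HB Vale.Agent.P272.K.LIN Vale.Agent.P218ST
open Vale.Agent.P218SQ (Pt Adm)
open Vale.Agent.P218VA
open Vale.Agent.P218XI (coneF)

variable {S : Set E3} {w : E3 → ℝ} {δ C : ℝ} {ι κ M : Type} [Fintype ι] [Fintype κ]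
  [TopologicalSpace M] [ChartedSpace E2 M] [T2Space M] [RSm E2 M] [CompactSpace M]
  [MeasurableSpace M] [BorelSpace M] {m : Model S w δ C ι κ M} {τ : Type} [Fintype τ]

theorem ev_coneOk (H : Hub m τ) (𝒞 : Cov E2 M) (k : κ)
    (h : P218WD.ConeOK (coneF (m.L k)) (fun p => (m.t k p : ℂ)) (H.s + 1)) :
    ∀ᶠ c' in H.c.sm, ∀ W z, c'.Ok W z → ConeOk (geo H 𝒞) W (cfg H W z) k := by
  obtain ⟨c, c0, ε, e0, h⟩ := h
  filter_upwards [H.c.ev_le, (H.t_hn k).hb.near e0] with c' hc h1 W z hz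
  have h0 : ∀ p : ℝ × ℝ, H.s < p.1 → 0 < p.1 := fun p hp => by linarith [w0_lt H, m.one_le]
  have a : ∀ p : ℝ × ℝ, H.s + 1 ≤ p.1 → (‖H.t W z k p‖ ≤ 1 / 2 ∧
      p.1 * ‖pd (H.t W z k) (1, 0) p‖ ≤ 1 ∧ ‖pd (H.t W z k) (0, 1) p‖ ≤ 1) ∧
      c ≤ (gram ((coneF (m.L k)).a p.1 p.2 (H.t W z k p) (pd (H.t W z k) (1, 0) p))
        ((coneF (m.L k)).b p.1 p.2 (H.t W z k p) (pd (H.t W z k) (0, 1) p))).re := fun p hp => by
    have hp' : H.s < p.1 := by linarith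
    have b := h1.1 W z hz p hp'
    rw [P218CO.cj_congr (f := H.tb 0 k) (g := fun p => (m.t k p : ℂ))
      ((continuous_fst.continuousAt.eventually (lt_mem_nhds hp')).mono (H.t_zero k))] at b
    obtain ⟨b0, b1, b2⟩ := t3_le ((norm_fst_le _).trans b.le)
    simp only [nj, P218CO.cj, ← smul_sub, norm_smul, Complex.norm_real,
      Real.norm_of_nonneg (h0 p hp').le] at b0 b1 b2
    simpa only [add_sub_cancel] using h p hp _ _ _ b0 b1 b2
  have cd := (H.t_hn k).cd W z (hc.ok hz)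
  refine ⟨⟨_, _, _, jet2_of_contDiff isOpen_Ioi (Ici_subset_Ioi.2 (lt_add_one H.s))
    (fun p hp => cd p hp.1) fun v _ => H.t_per W z k v, fun p hp => ?_⟩, fun p hp => (a p hp).1,
    c, c0, fun p hp => (a p hp).2⟩
  have hp1 : H.s + 1 ≤ p.1 := interior_subset hp
  have hp' : H.s < p.1 := by linarith
  have n := lam_ne (a p hp1).1.1
  obtain ⟨e1, e2⟩ := (coneF (m.L k)).pd_X1 ((cd p hp').of_le one_le_two) (h0 p hp') n
  obtain ⟨e3, e4, e5⟩ := (coneF (m.L k)).pd_X2 (cd p hp') (h0 p hp') n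
  have e := H.cone_eq W z (hc.ok hz) k p hp'
  rw [PPF, e1, e2, e3, e4, e5] at e
  exact e

/-- **The reduced action.** -/
theorem exists_action [DecidableEq ι] (m : Model S w δ C ι κ M) : ∃ s0 : ℝ, ∀ (τ : Type)
    [Fintype τ] (H : Hub m τ), s0 ≤ H.s → ∃ f : (ι → ℝ) → Pt ι τ → ℂ, H.ActOut f := by
  obtain ⟨s0, h⟩ := eventually_atTop.1 (eventually_all.2 (P218WD.exists_coneOK m))
  obtain ⟨𝒞⟩ := Cov.nonempty E2 M
  refine ⟨s0, fun τ _ H hs => ?_⟩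
  obtain ⟨c, hc, hf⟩ := Cst.exists_of_ev (fam_of H 𝒞 (fun W z => P218WD.cyl_sol H 𝒞)
    ((eventually_all.2 fun k => ev_coneOk H 𝒞 k (h _ (by linarith) k)).mono
      fun _ a W z hz k => a k W z hz) (fun W z => P218WD.cyl_lipz H 𝒞)
    fun W z => P218WD.cyl_lipW H 𝒞)
  exact ⟨_, (fit H 𝒞 hc).actOut hf (P218WD.res_of H 𝒞 hc hf)⟩

end Vale.Agent.P218AC
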