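import Vale.Agent.P218AC.Defs
import Vale.Agent.P218HB.Rep

/-! # The core of the configurations -/

open Set Filter Topology Metric MeasureTheory
open scoped Matrix ContDiff

set_option linter.unusedSectionVars false

noncomputable section

namespace Vale.Agent.P218AC

open Vale.Agent.P218GA Vale.Agent.P218HB Vale.Agent.P272.K.LIN Vale.Agent.P218ST
open Vale.Agent.P218SQ (Pt Adm)
open Vale.Agent.P218VA
open Vale.Agent.P218CO (cj J2 T3)

lemma exists_inv {T : ℝ × ℝ → E2} {y : ℝ × ℝ} (hT : ContDiffAt ℝ 2 T y)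
    (hj : jac (1, 0) (0, 1) T y ≠ 0) :
    ∃ σ : E2 → ℝ × ℝ, ContDiffAt ℝ 2 σ (T y) ∧ σ (T y) = y ∧ ∀ᶠ v in 𝓝 (T y), T (σ v) = v := by
  have hi : Function.Injective (fderiv ℝ T y) := (injective_iff_map_eq_zero _).2 fun v hv => by
    have e : v = v.1 • ((1, 0) : ℝ × ℝ) + v.2 • (0, 1) := by simp
    rw [e, map_add, map_smul, map_smul] at hv
    have h0 : v.1 * pd T (1, 0) y 0 + v.2 * pd T (0, 1) y 0 = 0 := congrArg (· 0) hv
    have h1 : v.1 * pd T (1, 0) y 1 + v.2 * pd T (0, 1) y 1 = 0 := congrArg (· 1) hv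
    refine Prod.ext (mul_right_cancel₀ hj ?_) (mul_right_cancel₀ hj ?_) <;>
      simp only [jac, Prod.fst_zero, Prod.snd_zero]
    · linear_combination pd T (0, 1) y 1 * h0 - pd T (0, 1) y 0 * h1
    · linear_combination pd T (1, 0) y 0 * h1 - pd T (1, 0) y 1 * h0
  have h1 : HasFDerivAt T ((LinearMap.linearEquivOfInjective (fderiv ℝ T y).toLinearMap hi
      (by simp)).toContinuousLinearEquiv : ℝ × ℝ →L[ℝ] E2) y :=
    (hT.differentiableAt two_ne_zero).hasFDerivAt.congr_fderiv (by ext <;> rfl)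
  exact ⟨hT.localInverse h1 two_ne_zero, hT.to_localInverse h1 two_ne_zero,
    hT.localInverse_apply_image h1 two_ne_zero,
    (hT.hasStrictFDerivAt' h1 two_ne_zero).eventually_right_inverse⟩

lemma ev_compact {α Y : Type*} [TopologicalSpace Y] {l : Filter α} {K : Set Y} (hK : IsCompact K)
    {P : α → Set Y → Prop} (h0 : ∀ a, P a ∅) (hm : ∀ a s t, s ⊆ t → P a t → P a s)
    (hu : ∀ a s t, P a s → P a t → P a (s ∪ t)) (h : ∀ y ∈ K, ∃ N ∈ 𝓝 y, ∀ᶠ a in l, P a N) :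
    ∀ᶠ a in l, P a K :=
  hK.induction_on (p := fun s => ∀ᶠ a in l, P a s) (Eventually.of_forall h0)
    (fun s t hs ht => ht.mono fun a => hm a s t hs)
    (fun s t hs ht => (hs.and ht).mono fun a ha => hu a s t ha.1 ha.2)
    fun y hy => (h y hy).imp fun _ hN => ⟨nhdsWithin_le_nhds hN.1, hN.2⟩

section lz
variable {ι τ D G : Type} [Fintype ι] [Fintype τ] [NormedAddCommGroup G] [NormedSpace ℂ G]

/-- the type of relations of closeness -/
abbrev Rel (ι τ : Type) := (ι → ℝ) → Pt ι τ → (ι → ℝ) → Pt ι τ → ℝ → Prop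

/-- locally Lipschitz in the parameters and in the cuts, for the relation `P` -/
structure LzP (c : Cst) (P : Rel ι τ) : Prop where
  mono : ∀ W z W' z' a b, a ≤ b → P W z W' z' a → P W z W' z' b
  lip : ∀ W z, c.Ok W z → ∃ L : ℝ, 0 ≤ L ∧ (∀ᶠ z' in 𝓝 z, P W z W z' (L * ‖z' - z‖)) ∧
    ∀ᶠ W' in 𝓝 W, c.Ok W' z → P W z W' z (L * ‖W' - W‖)

/-- locally Lipschitz in the parameters and in the cuts, uniformly on `N` -/
def Lz (c : Cst) (N : Set D) (g : (ι → ℝ) → Pt ι τ → D → G) : Prop :=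
  LzP c fun W z W' z' r => ∀ y ∈ N, ‖g W' z' y - g W z y‖ ≤ r

variable {c c' : Cst} {N N' : Set D} {g : (ι → ℝ) → Pt ι τ → D → G} {gb : Pt ι τ → D → G}
  {P Q : Rel ι τ}

lemma LzP.of (hm : ∀ W z W' z' a b, a ≤ b → P W z W' z' a → P W z W' z' b)
    (h1 : ∀ W z, c.Ok W z → ∃ L : ℝ, 0 ≤ L ∧ ∀ᶠ z' in 𝓝 z, P W z W z' (L * ‖z' - z‖))
    (h2 : ∀ W z, c.Ok W z → ∃ L : ℝ, 0 ≤ L ∧ ∀ᶠ W' in 𝓝 W, c.Ok W' z →
      P W z W' z (L * ‖W' - W‖)) : LzP c P := ⟨hm, fun W z hz => by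
  obtain ⟨L, h0, h1⟩ := h1 W z hz
  obtain ⟨L', h0', h1'⟩ := h2 W z hz
  refine ⟨L + L', by positivity, h1.mono fun z' => hm _ _ _ _ _ _ ?_,
    h1'.mono fun W' h2 h3 => hm _ _ _ _ _ _ ?_ (h2 h3)⟩ <;> gcongr <;> linarith⟩

lemma LzP.le (h : LzP c P) (hc : c'.Le c) : LzP c' P := ⟨h.mono, fun W z hz =>
  (h.lip W z (hc.ok hz)).imp fun _ hL => ⟨hL.1, hL.2.1, hL.2.2.mono fun _ h1 h2 => h1 (hc.ok h2)⟩⟩

lemma LzP.imp (h : LzP c P) (hm : ∀ W z W' z' a b, a ≤ b → Q W z W' z' a → Q W z W' z' b)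
    (hPQ : ∀ W z W' z' a, c.Ok W z → c.Ok W' z' → P W z W' z' a → Q W z W' z' a) : LzP c Q :=
  ⟨hm, fun W z hz => (h.lip W z hz).imp fun _ hL => ⟨hL.1,
    (hL.2.1.and hz.nhds).mono fun _ h1 => hPQ _ _ _ _ _ hz h1.2 h1.1,
    hL.2.2.mono fun _ h1 h2 => hPQ _ _ _ _ _ hz h2 (h1 h2)⟩⟩

lemma LzP.all {σ : Type} [Fintype σ] {P : σ → Rel ι τ} (h : ∀ i, LzP c (P i)) :
    LzP c fun W z W' z' r => ∀ i, P i W z W' z' r :=
  ⟨fun _ _ _ _ _ _ hab h1 i => (h i).mono _ _ _ _ _ _ hab (h1 i), fun W z hz => by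
    choose L h0 h1 h2 using fun i => (h i).lip W z hz
    have k : ∀ i {x : ℝ}, 0 ≤ x → L i * x ≤ (∑ i, L i) * x := fun i x hx =>
      mul_le_mul_of_nonneg_right (Finset.single_le_sum (fun i _ => h0 i) (Finset.mem_univ i)) hx
    exact ⟨∑ i, L i, Finset.sum_nonneg fun i _ => h0 i, (eventually_all.2 h1).mono fun _ a i =>
      (h i).mono _ _ _ _ _ _ (k i (norm_nonneg _)) (a i), (eventually_all.2 h2).mono fun _ a b i =>
        (h i).mono _ _ _ _ _ _ (k i (norm_nonneg _)) (a i b)⟩⟩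

lemma LzP.and (h : LzP c P) (h' : LzP c Q) :
    LzP c fun W z W' z' r => P W z W' z' r ∧ Q W z W' z' r :=
  (LzP.all (P := fun b : Bool => cond b P Q) fun b => by cases b; exacts [h', h]).imp
    (fun _ _ _ _ _ _ hab h1 => ⟨h.mono _ _ _ _ _ _ hab h1.1, h'.mono _ _ _ _ _ _ hab h1.2⟩)
    fun _ _ _ _ _ _ _ h1 => ⟨h1 true, h1 false⟩

lemma lz_of (h : HB c N g gb) (hl : Lp c N g) : Lz c N g :=
  LzP.of (fun _ _ _ _ _ _ hab h1 y hy => (h1 y hy).trans hab) (fun _ _ => h.lipz)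
    fun _ z hz => (hl.nonneg hz.1).imp fun _ hL => ⟨hL.1, hL.2.mono fun _ h1 => h1 z hz⟩

lemma Lz.mono (h : Lz c N g) (hc : c'.Le c) (hN : N' ⊆ N) : Lz c' N' g :=
  (LzP.le h hc).imp (fun _ _ _ _ _ _ hab h1 y hy => (h1 y hy).trans hab)
    fun _ _ _ _ _ _ _ h1 y hy => h1 y (hN hy)

lemma Lz.union (h : Lz c N g) (h' : Lz c N' g) : Lz c (N ∪ N') g :=
  (LzP.and h h').imp (fun _ _ _ _ _ _ hab h1 y hy => (h1 y hy).trans hab)
    fun _ _ _ _ _ _ _ h1 y hy => hy.elim (h1.1 y) (h1.2 y)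

lemma lz_empty : Lz c ∅ g := ⟨fun _ _ _ _ _ _ _ _ _ h => h.elim, fun _ _ _ =>
  ⟨0, le_rfl, Eventually.of_forall fun _ _ h => h.elim, Eventually.of_forall fun _ _ _ h => h.elim⟩⟩

end lz

variable {S : Set E3} {w : E3 → ℝ} {δ C : ℝ} {ι κ M : Type} [Fintype ι] [Fintype κ]
  [TopologicalSpace M] [ChartedSpace E2 M] [T2Space M] [RSm E2 M] [CompactSpace M]
  [MeasurableSpace M] [BorelSpace M] {m : Model S w δ C ι κ M} {τ : Type} [Fintype τ]
  (H : Hub m τ) {x : M} {e : OpenPartialHomeomorph M E2}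

/-- the family in a chart -/
theorem core_chart (hx : x ∈ coreK m.φ (H.s + 3)) (he : e ∈ atlas E2 M) (hxe : x ∈ e.source) :
    ∃ gb, HG H.c u1 u2 (e x) (fun W z => cX e (H.X W z)) gb ∧
      gb 0 =ᶠ[𝓝 (e x)] cX e fun y => cx (m.F y) := by
  obtain ⟨c', hc, e', he', T, y, hT, hj, hy, hxy, U, hU, gb, h1, h2⟩ := H.core x hx
  obtain ⟨σ, s1, s2, s3⟩ := exists_inv hT hj
  have hx' : x ∈ e'.source := hxy ▸ e'.map_target hy
  have a0 : e' (e.symm (e x)) = T y := by rw [e.left_inv hxe, ← hxy, e'.right_inv hy]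
  have a1 := trans_smooth he' he hx' hxe
  have a2 : ContDiffAt ℝ 2 (fun v => σ (e' (e.symm v))) (e x) :=
    ContDiffAt.comp (g := σ) (e x) (a0 ▸ s1) a1
  have a3 : σ (e' (e.symm (e x))) = y := by rw [a0, s2]
  have a4 : ∀ᶠ v in 𝓝 (e x), e'.symm (T (σ (e' (e.symm v)))) = e.symm v := by
    filter_upwards [a1.continuousAt.eventually (a0.symm ▸ s3), symm_trans_eq hx' hxe] with v b1 b2
    rw [b1, e'.left_inv b2.1]
  refine ⟨fun z v => gb z (σ (e' (e.symm v))), (HG.rep (T := fun v => σ (e' (e.symm v)))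
    (by rw [a3]; exact h1.hg hc hU) isBas_prod a2).congr'
      (a4.mono fun v hv W z _ => by simp only [cX, hv]), ?_⟩
  filter_upwards [a4, a2.continuousAt.eventually (p := (· ∈ U)) (a3.symm ▸ hU :)]
    with v b1 b2
  simp only [cX, h2 _ b2, b1]

lemma imm_F (hx : x ∈ m.reg) : Imm (fun y => cx (m.F y)) x := m.isArea.imm x hx

lemma core_loc (hx : x ∈ coreK m.φ (H.s + 3)) : ∃ N ∈ 𝓝 x, ∀ᶠ c' in H.c.sm, ∀ W z, c'.Ok W z →
    ∀ y ∈ N, Imm (H.X W z) y ∧ ‖LagM (fun y => cx (m.F y)) (H.X W z) y‖ ≤ 2 := by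
  have he := chart_mem_atlas E2 x
  have hxe := mem_chart_source E2 x
  set e := chartAt E2 x
  have hr := coreK_sub_reg m _ hx
  have hF := imm_F hr
  obtain ⟨gb, h1, h2⟩ := core_chart H hx he hxe
  obtain ⟨c', hc, U, hU, -, h3⟩ := h1.exists_hf
  set j : E2 → T3 C3 := fun v => (cj u1 u2 (cX e fun y => cx (m.F y)) v).1 with hj
  have j0 : gram (j (e x)).2.1 (j (e x)).2.2 ∈ Complex.slitPlane := hF.slit e he hxe
  have j1 : ContinuousAt j (e x) := (P218CO.contDiffAt_cj (n := 0)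
    (by simpa using hF.ck e he hxe)).continuousAt.fst
  have l0 : ContinuousAt Lg (j (e x)) := (contDiffAt_Lg (n := 0) j0).continuousAt
  have l1 : 0 < ‖Lg (j (e x))‖ := norm_pos_iff.2 (hF.lag_ne he hxe)
  have l2 : ∀ᶠ a in 𝓝 (j (e x)), gram a.2.1 a.2.2 ∈ Complex.slitPlane ∧
      3 / 4 * ‖Lg (j (e x))‖ < ‖Lg a‖ ∧ ‖Lg a‖ < 3 / 2 * ‖Lg (j (e x))‖ :=
    ((contDiffAt_gram (𝕜 := ℝ) (n := 0) contDiffAt_snd.fst contDiffAt_snd.snd
      ).continuousAt.eventually (Complex.isOpen_slitPlane.mem_nhds j0)).and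
      ((l0.norm.eventually_const_lt (by linarith)).and (l0.norm.eventually_lt_const (by linarith)))
  obtain ⟨ε, hε, l3⟩ := Metric.eventually_nhds_iff.1 l2
  have ev : ∀ᶠ v in 𝓝 (e x), v ∈ U ∧ dist (j v) (j (e x)) < ε / 2 ∧
      gb 0 =ᶠ[𝓝 v] cX e fun y => cx (m.F y) :=
    (show ∀ᶠ v in 𝓝 (e x), v ∈ U from hU).and ((Metric.tendsto_nhds.1 j1 _ (half_pos hε)).and
      h2.eventuallyEq_nhds)
  refine ⟨_, (((e.continuousAt hxe).eventually ev).and (e.open_source.eventually_mem hxe)).and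
    (m.isOpen_reg.eventually_mem hr), ?_⟩
  rw [← hc.sm]
  filter_upwards [h3.hb1.near (half_pos hε), c'.ev_le] with c'' b1 b2 W z hz y ⟨⟨⟨y1, y2, y3⟩, y4⟩, y5⟩
  have d1 := b1.1 W z hz _ y1
  rw [P218CO.cj_congr y3, ← dist_eq_norm] at d1
  have d2 := l3 ((dist_triangle _ (j (e y)) _).trans_lt (by linarith))
  have d3 := l3 (y2.trans (half_lt_self hε))
  have d4 := imm_of_chart he y4 (h3.cd W z (b2.ok hz) _ y1) d2.1
  refine ⟨d4, ?_⟩
  have d5 := congrArg norm (LagM_chart (imm_F y5) (d4.ck.of_le one_le_two) he y4)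
  rw [norm_mul] at d5
  have d6 : ‖LagF u1 u2 (cX e (H.X W z)) (e y)‖ < _ := d2.2.2
  have d7 : _ < ‖LagF u1 u2 (cX e fun y => cx (m.F y)) (e y)‖ := d3.2.1
  nlinarith [norm_nonneg (LagM (fun y => cx (m.F y)) (H.X W z) y)]

/-- the surfaces are immersions on the core, with bounded Lagrangian -/
theorem ev_imm : ∀ᶠ c' in H.c.sm, ∀ W z, c'.Ok W z → ∀ y ∈ coreK m.φ (H.s + 3),
    Imm (H.X W z) y ∧ ‖LagM (fun y => cx (m.F y)) (H.X W z) y‖ ≤ 2 :=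
  ev_compact (P := fun (c' : Cst) N => ∀ W z, c'.Ok W z → ∀ y ∈ N,
    Imm (H.X W z) y ∧ ‖LagM (fun y => cx (m.F y)) (H.X W z) y‖ ≤ 2) isCompact_coreK
    (fun _ _ _ _ _ h => h.elim) (fun _ _ _ hs h W z hz y hy => h W z hz y (hs hy))
    (fun _ _ _ h h' W z hz y hy => hy.elim (h W z hz y) (h' W z hz y)) fun _ => core_loc H

lemma ev_lz_piece (𝒞 : Cov E2 M) (i : Fin 𝒞.N) : ∀ᶠ c' in H.c.sm,
    Lz c' (closedBall (𝒞.c i) (𝒞.r i) ∩ (𝒞.e i).symm ⁻¹' coreK m.φ (H.s + 3))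
      fun W z v => (cj u1 u2 (cX (𝒞.e i) (H.X W z)) v).1 := by
  refine ev_compact (P := fun c' N => Lz c' N fun W z v => (cj u1 u2 (cX (𝒞.e i) (H.X W z)) v).1)
    (isCompact_piece 𝒞 isCompact_coreK i) (fun _ => lz_empty)
    (fun _ _ _ hs h => h.mono Cst.Le.rfl hs) (fun _ _ _ => Lz.union) fun v hv => ?_
  have hv' : v ∈ (𝒞.e i).target :=
    𝒞.sub i (closedBall_subset_closedBall (by linarith [𝒞.r_pos i]) hv.1)
  obtain ⟨gb, h1, -⟩ := core_chart H hv.2 (𝒞.mem i) ((𝒞.e i).map_target hv')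
  rw [(𝒞.e i).right_inv hv'] at h1
  obtain ⟨c', hc, U, hU, -, h3⟩ := h1.exists_hf
  exact ⟨U, hU, hc.ev.mono fun _ h => (lz_of h3.hb1 h3.lp).mono h Subset.rfl⟩

lemma t3_le {G : Type} [NormedAddCommGroup G] {a b : T3 G} {r : ℝ} (h : ‖a - b‖ ≤ r) :
    ‖a.1 - b.1‖ ≤ r ∧ ‖a.2.1 - b.2.1‖ ≤ r ∧ ‖a.2.2 - b.2.2‖ ≤ r :=
  ⟨(norm_fst_le (a - b)).trans h, ((norm_fst_le (a - b).2).trans (norm_snd_le _)).trans h,
    ((norm_snd_le (a - b).2).trans (norm_snd_le _)).trans h⟩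

lemma t3_mono {a b c r r' : ℝ} (hr : r ≤ r') (h : a ≤ r ∧ b ≤ r ∧ c ≤ r) :
    a ≤ r' ∧ b ≤ r' ∧ c ≤ r' := ⟨h.1.trans hr, h.2.1.trans hr, h.2.2.trans hr⟩

/-- the one-jets on the core are Lipschitz -/
theorem ev_jetClose (𝒞 : Cov E2 M) : ∀ᶠ c' in H.c.sm, LzP c' fun W z W' z' r =>
    JetClose 𝒞 (coreK m.φ (H.s + 2)) (H.X W' z') (H.X W z) r :=
  (eventually_all.2 (ev_lz_piece H 𝒞)).mono fun _ h => (LzP.all h).imp
    (fun _ _ _ _ _ _ hab h1 i y hy hy' => t3_mono hab (h1 i y hy hy'))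
    fun _ _ _ _ _ _ _ h1 i y hy hy' =>
      t3_le (h1 i y ⟨ball_subset_closedBall hy, coreK_mono (by linarith) hy'⟩)

/-- the height is continuous on the deep core -/
lemma contOn_U {W : ι → ℝ} {z : Pt ι τ} (hz : H.c.Ok W z)
    (h : ∀ y ∈ coreK m.φ H.sd, Imm (H.X W z) y) : ContinuousOn (H.U W z) (coreK m.φ H.sd) := by
  have hr := coreK_sub_reg m H.sd
  have h1 : ContinuousOn (fun y => cx (m.nu y)) (coreK m.φ H.sd) := fun y hy =>
    (cx.continuous.continuousAt.comp (m.ckAt_nu (hr hy)).continuousAt).continuousWithinAt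
  refine (continuousOn_dot (ContinuousOn.sub (fun y hy => (h y hy).ck.continuousAt.continuousWithinAt)
    fun y hy => (imm_F (hr hy)).ck.continuousAt.continuousWithinAt) h1).congr fun y hy => ?_
  simp only [Pi.sub_apply, H.normal W z hz y hy, add_sub_cancel_left, smul_dotProduct, cx_dot,
    real_inner_self_eq_norm_sq, m.norm_nu (hr hy)]
  simp

lemma eD_mul (k : τ ⊕ ι) (U : M → ℂ) : (fun x => eD H k x * U x) =
    (coreK m.φ H.sd).indicator fun x => (H.e k (m.F x) : ℝ) * U x :=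
  funext fun _ => (indicator_mul_left _ _ U).symm

lemma int_eD {W : ι → ℝ} {z : Pt ι τ} (hz : H.c.Ok W z)
    (h : ∀ y ∈ coreK m.φ H.sd, Imm (H.X W z) y) (k : τ ⊕ ι) :
    Integrable (fun x => eD H k x * H.U W z x) m.mu0 := by
  have := m.isArea.fin
  rw [eD_mul, integrable_indicator_iff isClosed_coreK.measurableSet]
  refine ContinuousOn.integrableOn_compact isCompact_coreK (ContinuousOn.mul ?_ (contOn_U H hz h))
  exact fun y hy => (Complex.continuous_ofReal.continuousAt.comp ((H.e_cont k).continuousAt.comp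
    (m.ckAt_F (coreK_sub_reg m _ hy)).continuousAt)).continuousWithinAt

lemma pin_eD {W : ι → ℝ} {z : Pt ι τ} (hz : H.c.Ok W z) (k : τ ⊕ ι) :
    ∫ x, eD H k x * H.U W z x ∂m.mu0 = H.mo z k := by
  rw [eD_mul, integral_indicator isClosed_coreK.measurableSet, H.pin W z hz]

end Vale.Agent.P218AC
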