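import Vale.Agent.P218AC.Core
import Vale.Agent.P218VA.Out

/-! # The family of configurations given by the static construction -/

open Set Filter Topology Metric MeasureTheory
open scoped Matrix ContDiff

set_option linter.unusedSectionVars false

noncomputable section

namespace Vale.Agent.P218AC

open Vale.Agent.P218GA Vale.Agent.P218HB Vale.Agent.P272.K.LIN Vale.Agent.P218ST
open Vale.Agent.P218SQ (Pt Adm)
open Vale.Agent.P218VA
open Vale.Agent.P218XI (si d1)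

variable {S : Set E3} {w : E3 → ℝ} {δ C : ℝ} {ι κ M : Type} [Fintype ι] [Fintype κ]
  [TopologicalSpace M] [ChartedSpace E2 M] [T2Space M] [RSm E2 M] [CompactSpace M]
  [MeasurableSpace M] [BorelSpace M] {m : Model S w δ C ι κ M} {τ : Type} [Fintype τ]

/-- the clauses of `Geo.Sol` for a cylindrical end -/
def CylOk (G : Geo M ι κ) (W : ι → ℝ) (C : Cfg M ι κ) (i : ι) : Prop :=
  JetAt G W C (.inl i) ∧ SmallAt G W C (.inl i) ∧
    (∀ p : ℝ × ℝ, p.1 ∈ Icc G.s (W i) → G.grm C (.inl i) p ∈ Complex.slitPlane) ∧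
    (∀ θ, 1 ≤ W i ^ 2 * ‖G.grm C (.inl i) (W i, θ)‖) ∧
    1 ≤ 4 * W i ^ 2 * (sn2 (C.cap i (W i))).re ∧
    ∀ θ, 16 * (W i : ℂ) ^ 2 * Complex.exp (-W i) *
      d1 (C.t (.inl i) (W i, θ)) (C.tw (.inl i) (W i, θ)) * si (C.t (.inl i) (W i, θ)) /
        Complex.sqrt (G.grm C (.inl i) (W i, θ)) = -BdA (W i) (C.cap i (W i))

/-- the clauses of `Geo.Sol` for a conical end -/
def ConeOk (G : Geo M ι κ) (W : ι → ℝ) (C : Cfg M ι κ) (k : κ) : Prop :=
  JetAt G W C (.inr k) ∧ SmallAt G W C (.inr k) ∧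
    ∃ c > 0, ∀ p : ℝ × ℝ, G.s ≤ p.1 → c ≤ (G.grm C (.inr k) p).re

variable (H : Hub m τ) (𝒞 : Cov E2 M) {c : Cst} {W : ι → ℝ} {z : Pt ι τ}

lemma fit (hc : c.Le H.c) : Fit H c (geo H 𝒞) (cfg H) :=
  ⟨hc, rfl, rfl, rfl, rfl, rfl, fun _ _ _ => rfl, fun _ _ _ => rfl, fun _ _ _ _ _ _ => rfl,
    fun _ _ _ _ _ _ => rfl⟩

theorem sol_of (hz : H.c.Ok W z) (h1 : ∀ y ∈ coreK m.φ (H.s + 3),
      Imm (H.X W z) y ∧ ‖LagM (fun y => cx (m.F y)) (H.X W z) y‖ ≤ 2)
    (h2 : ∀ i, CylOk (geo H 𝒞) W (cfg H W z) i) (h3 : ∀ k, ConeOk (geo H 𝒞) W (cfg H W z) k) :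
    (geo H 𝒞).Sol W (cfg H W z) fun x => ∑ k, H.lam W z k * eD H k x := by
  have hs : (geo H 𝒞).s = H.s + 1 := rfl
  have hle : ∀ i, (geo H 𝒞).s + 2 ≤ W i := fun i => by linarith [H.le', (hz.1 i).1]
  exact
    { le := hle
      imm := fun x hx => (h1 x (coreK_mono (by linarith) (coreO_subset_coreK hx))).1
      lag := fun x hx => (h1 x (coreK_mono (by linarith) hx)).2
      deep := fun x hx => ⟨H.normal W z hz x hx, (H.deep W z hz x hx).trans
        (Finset.sum_congr rfl fun k _ => by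
          rw [eD, indicator_of_mem (s := coreK m.φ H.sd) hx])⟩
      out := fun x hx => H.out W z hz x (coreK_mono (by linarith) hx)
      src := fun x hx => Finset.sum_eq_zero fun k _ => by
        rw [eD, indicator_of_notMem (s := coreK m.φ H.sd) hx, mul_zero]
      orth := fun j => by
        cases j
        exacts [H.orth W z hz _, by simp [cfg]]
      glue := fun j p a b => (fit H 𝒞 Cst.Le.rfl).glue hz j p (by
        cases j with
        | inl i => exact interior_Icc (α := ℝ) ▸ ⟨a, b.trans_le (hle i)⟩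
        | inr k => exact interior_Ici (α := ℝ) ▸ a)
      jet := fun j => by
        cases j
        exacts [(h2 _).1, (h3 _).1]
      small := fun j => by
        cases j
        exacts [(h2 _).2.1, (h3 _).2.1]
      slit := fun i => (h2 i).2.2.1
      cone := fun k => (h3 k).2.2
      low := fun i => (h2 i).2.2.2.1
      cap := fun i => (h2 i).2.2.2.2.1
      contact := fun i => (h2 i).2.2.2.2.2 }

lemma lz_nonneg : LzP c fun (_ : ι → ℝ) (_ : Pt ι τ) _ _ r => 0 ≤ r :=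
  ⟨fun _ _ _ _ _ _ h h' => h'.trans h, fun _ _ _ => ⟨0, le_rfl,
    Eventually.of_forall fun _ => by simp, Eventually.of_forall fun _ _ => by simp⟩⟩

lemma lz_rot : LzP H.c fun W z W' z' r =>
    ∀ j a b, ‖(cfg H W' z').R j a b - (cfg H W z).R j a b‖ ≤ r :=
  (LzP.and (lz_of H.R_hb H.R_lp) lz_nonneg).imp
    (fun _ _ _ _ _ _ hab h j a b => (h j a b).trans hab) fun _ _ _ _ _ _ _ h j a b => by
      cases j with
      | inl i => exact h.1 (i, a, b) (mem_univ _)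
      | inr k => simpa [cfg] using h.2

lemma lz_cone : LzP H.c fun W z W' z' r => ConeClose (geo H 𝒞) (cfg H W z) (cfg H W' z') r :=
  (LzP.all fun k => lz_of ((H.t_hn k).hb.clm (ContinuousLinearMap.fst ℂ _ _)) (H.t_hn k).lp).imp
    (fun _ _ _ _ _ _ hab h k p hp => t3_mono hab (h k p hp)) fun W z W' z' r _ _ h k p hp => by
      have h0 : H.s < p.1 := (lt_add_one _).trans_le hp
      have h1 : 0 ≤ p.1 := by linarith [w0_lt H, m.one_le]
      obtain ⟨a, b, d⟩ := t3_le (h k p h0)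
      refine ⟨a, le_trans (le_of_eq ?_) b, d⟩
      simp only [ContinuousLinearMap.coe_fst', nj, P218CO.cj, ← smul_sub, norm_smul,
        Complex.norm_real, Real.norm_of_nonneg h1]
      rfl

lemma CylClose.mono {G : Geo M ι κ} {W W' : ι → ℝ} {C C' : Cfg M ι κ} {a b : ℝ} {i : ι}
    (hab : a ≤ b) : CylClose G W W' C C' a i → CylClose G W W' C C' b i :=
  fun ⟨ψ, ψ', h, h'⟩ => ⟨ψ, ψ', ⟨h.deriv, h.cont, h.low, h.top, fun v hv => (h.c0 v hv).trans hab,
    fun v hv => (h.c1 v hv).trans hab⟩, fun v hv θ => t3_mono hab (h' v hv θ)⟩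

lemma norm_update_sub [DecidableEq ι] (W : ι → ℝ) (j : ι) (v : ℝ) :
    ‖Function.update W j v - W‖ ≤ |v - W j| :=
  (pi_norm_le_iff_of_nonneg (abs_nonneg _)).2 fun i => by
    by_cases h : i = j
    · simp [h]
    · simp [h]

/-- the family of configurations -/
theorem fam_of [DecidableEq ι] (h1 : ∀ W z, H.c.Ok W z → ∀ i, CylOk (geo H 𝒞) W (cfg H W z) i)
    (h2 : ∀ᶠ c' in H.c.sm, ∀ W z, c'.Ok W z → ∀ k, ConeOk (geo H 𝒞) W (cfg H W z) k)
    (h3 : ∀ W z, H.c.Ok W z → ∃ L : ℝ, 0 ≤ L ∧ ∀ᶠ z' in 𝓝 z, ∀ i,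
      CylClose (geo H 𝒞) W W (cfg H W z) (cfg H W z') (L * ‖z' - z‖) i)
    (h4 : ∀ W z, H.c.Ok W z → ∃ L : ℝ, 0 ≤ L ∧ ∀ᶠ W' in 𝓝 W, H.c.Ok W' z → ∀ i,
      CylClose (geo H 𝒞) W W' (cfg H W z) (cfg H W' z) (L * ‖W' - W‖) i) :
    ∀ᶠ c' in H.c.sm,
      (geo H 𝒞).Fam {W | Adm c'.w1 W} c'.dom (cfg H) (eD H) H.lam H.mo := by
  have k1 : LzP H.c fun W z W' z' r => ∀ i,
      CylClose (geo H 𝒞) W W' (cfg H W z) (cfg H W' z') r i :=
    LzP.of (fun _ _ _ _ _ _ hab h i => (h i).mono hab) h3 h4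
  filter_upwards [H.c.ev_le, h2, ev_imm H, ev_jetClose H 𝒞] with c' hc a b d
  have k2 := d.and (((lz_rot H).and (k1.and (lz_cone H 𝒞))).le hc)
  have k3 : ∀ {W W' z z' r}, (JetClose 𝒞 (coreK m.φ (H.s + 2)) (H.X W' z') (H.X W z) r ∧
      (∀ j a b, ‖(cfg H W' z').R j a b - (cfg H W z).R j a b‖ ≤ r) ∧
      (∀ i, CylClose (geo H 𝒞) W W' (cfg H W z) (cfg H W' z') r i) ∧
      ConeClose (geo H 𝒞) (cfg H W z) (cfg H W' z') r) →
      (geo H 𝒞).Close W W' (cfg H W z) (cfg H W' z') r := fun h =>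
    ⟨by rw [show (geo H 𝒞).s + 1 = H.s + 2 from add_assoc H.s 1 1 ▸ by norm_num]; exact h.1,
      h.2.1, h.2.2.1, h.2.2.2⟩
  exact
    { sol := fun W hW z hz => sol_of H 𝒞 (hc.ok ⟨hW, hz⟩) (b W z ⟨hW, hz⟩)
        (h1 W z (hc.ok ⟨hW, hz⟩)) (a W z ⟨hW, hz⟩)
      int := fun W hW z hz => int_eD H (hc.ok ⟨hW, hz⟩) fun y hy =>
        (b W z ⟨hW, hz⟩ y (coreK_mono (by linarith [H.le]) hy)).1
      pin := fun W hW z hz => pin_eD H (hc.ok ⟨hW, hz⟩)
      opn := fun W _ => c'.isOpen_dom W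
      hol := fun W hW => H.mo_holo.mono ((Cst.dom_subset hW).trans hc.ball)
      lipz := fun W hW z hz => (k2.lip W z ⟨hW, hz⟩).imp fun _ h => h.2.1.mono fun _ => k3
      lipW := fun W hW z hz j => (k2.lip W z ⟨hW, hz⟩).imp fun L h => by
        have t : Tendsto (Function.update W j) (𝓝 (W j)) (𝓝 W) :=
          (continuous_const.update j continuous_id).tendsto' _ _ (by simp)
        filter_upwards [t.eventually h.2.2] with v hv e1 e2
        exact k3 (k2.mono _ _ _ _ _ _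
          (mul_le_mul_of_nonneg_left (norm_update_sub W j v) h.1) (hv ⟨e1, e2⟩)) }

end Vale.Agent.P218AC
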